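import Mathlib

/-!
# Row 67, block X2 (helper93): scalar inequalities for the cap and rim estimate
-/

set_option autoImplicit false

namespace Crest.Agent.N067.X3

noncomputable section

/-- the sum of the error terms; `b = r |B|`, `G = |g|`, `s` = tilt, `u = |1 - sg|`, `T = r t` -/
def Err (K κ b G s u T : ℝ) : ℝ :=
  8 * T ^ 2 + 8 * (1 + κ⁻¹) * (s ^ 2 * (256 * (b * s) ^ 2 + 4 * T ^ 2 + 4 * s ^ 2 + 32 * G ^ 2)) +
    56 * K * (b * s * T) + 48 * (G * (b * s)) + 8 * K * (s * T) + 64 * (b * s) ^ 2 +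
    32 * (u ^ 2 * (4 * G ^ 2 + T ^ 2 + u ^ 2 + 36 * K ^ 2 * T ^ 2)) + 2 * K * (u * T) +
    12 * K ^ 2 * T ^ 2

theorem young {A x y e : ℝ} (he : 0 < e) : A * (x * y) ≤ e * x ^ 2 + A ^ 2 / (4 * e) * y ^ 2 := by
  have h : 0 ≤ (2 * e * x - A * y) ^ 2 / (4 * e) := by positivity
  have e1 : (2 * e * x - A * y) ^ 2 / (4 * e) =
      e * x ^ 2 + A ^ 2 / (4 * e) * y ^ 2 - A * (x * y) := by field_simp; ring
  linarith

/-- a common form: if `s, u, b s, G ≤ w`-type bounds hold -/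
theorem Err_le {K κ b G s u T θ w : ℝ} (K0 : 0 ≤ K) (κ0 : 0 < κ) (κ1 : κ ≤ 1) (b0 : 0 ≤ b)
    (G0 : 0 ≤ G) (s0 : 0 ≤ s) (u0 : 0 ≤ u) (T0 : 0 ≤ T) (θ0 : 0 ≤ θ) (θ1 : θ ≤ 1) (hs : s ≤ θ)
    (hu : u ≤ θ) (sw : s ≤ w) (uw : u ≤ w) (bw : b * s ≤ θ * w) (Gw : G ≤ w) :
    Err K κ b G s u T ≤ 5000 * (θ / κ) * w ^ 2 + 66 * K * (w * T) +
      (104 + 1164 * K ^ 2) / κ * T ^ 2 := by
  have w0 : 0 ≤ w := s0.trans sw
  have k1 : 1 ≤ κ⁻¹ := (one_le_inv₀ κ0).2 κ1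
  have bw' : b * s ≤ w := bw.trans (mul_le_of_le_one_left w0 θ1)
  have θ2 : θ ^ 2 ≤ θ := by nlinarith
  have s2 : s ^ 2 ≤ θ := (pow_le_pow_left₀ s0 hs 2).trans θ2
  have u2 : u ^ 2 ≤ θ := (pow_le_pow_left₀ u0 hu 2).trans θ2
  have a1 : s ^ 2 * (256 * (b * s) ^ 2 + 4 * T ^ 2 + 4 * s ^ 2 + 32 * G ^ 2) ≤
      292 * θ * w ^ 2 + 4 * T ^ 2 := by
    calc _ ≤ θ * (256 * w ^ 2 + 4 * T ^ 2 + 4 * w ^ 2 + 32 * w ^ 2) := by gcongr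
      _ ≤ _ := by nlinarith [sq_nonneg T]
  have a2 : u ^ 2 * (4 * G ^ 2 + T ^ 2 + u ^ 2 + 36 * K ^ 2 * T ^ 2) ≤
      5 * θ * w ^ 2 + (1 + 36 * K ^ 2) * T ^ 2 := by
    have : 0 ≤ (1 + 36 * K ^ 2) * T ^ 2 := by positivity
    calc _ ≤ θ * (4 * w ^ 2 + T ^ 2 + w ^ 2 + 36 * K ^ 2 * T ^ 2) := by gcongr
      _ ≤ _ := by nlinarith
  have a3 : G * (b * s) ≤ θ * w ^ 2 := by
    calc _ ≤ w * (θ * w) := by gcongr
      _ = _ := by ring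
  have a4 : (b * s) ^ 2 ≤ θ * w ^ 2 := by
    calc _ ≤ (θ * w) ^ 2 := by gcongr
      _ = θ ^ 2 * w ^ 2 := by ring
      _ ≤ _ := by gcongr
  have a5 : K * (b * s * T) ≤ K * (w * T) := by gcongr
  have a6 : K * (s * T) ≤ K * (w * T) := by gcongr
  have a7 : K * (u * T) ≤ K * (w * T) := by gcongr
  have a8 : 8 * (1 + κ⁻¹) * (s ^ 2 * (256 * (b * s) ^ 2 + 4 * T ^ 2 + 4 * s ^ 2 + 32 * G ^ 2)) ≤
      8 * (κ⁻¹ + κ⁻¹) * (292 * θ * w ^ 2 + 4 * T ^ 2) := by gcongr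
  have a9 : θ * w ^ 2 ≤ κ⁻¹ * (θ * w ^ 2) := le_mul_of_one_le_left (by positivity) k1
  have a10 : T ^ 2 ≤ κ⁻¹ * T ^ 2 := le_mul_of_one_le_left (by positivity) k1
  have a11 : K ^ 2 * T ^ 2 ≤ κ⁻¹ * (K ^ 2 * T ^ 2) := le_mul_of_one_le_left (by positivity) k1
  have a12 : 0 ≤ κ⁻¹ * (θ * w ^ 2) := by positivity
  unfold Err
  rw [div_eq_mul_inv, div_eq_mul_inv]
  nlinarith

/-- thin and middle range -/
theorem Err_thin {K κ e : ℝ} (K0 : 0 ≤ K) (κ0 : 0 < κ) (κ1 : κ ≤ 1) (e0 : 0 < e) :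
    ∃ θ C : ℝ, 0 < θ ∧ θ ≤ 1 / 1000 ∧ 0 ≤ C ∧ ∀ b G s u T : ℝ, 0 ≤ b → 0 ≤ G → 0 ≤ s → 0 ≤ u →
      0 ≤ T → b ≤ θ → s ≤ θ → u ≤ θ → u + s ≤ 72 * (G + T) →
      Err K κ b G s u T ≤ e * G ^ 2 + C * T ^ 2 := by
  refine ⟨min (1 / 1000) (e * κ / 10 ^ 9), e + 4752 * K + (4752 * K) ^ 2 / (4 * (e / 2)) +
    (104 + 1164 * K ^ 2) / κ, by positivity, min_le_left _ _, by positivity,
    fun b G s u T b0 G0 s0 u0 T0 hb hs hu hw => ?_⟩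
  set θ := min (1 / 1000) (e * κ / 10 ^ 9)
  have θ0 : 0 < θ := by positivity
  have θ1 : θ ≤ 1 := (min_le_left _ _).trans (by norm_num)
  have θ2 : θ / κ ≤ e / 10 ^ 9 := by
    rw [div_le_iff₀ κ0]; exact (min_le_right _ _).trans_eq (by ring)
  have h := Err_le K0 κ0 κ1 b0 G0 s0 u0 T0 θ0.le θ1 hs hu (w := 72 * (G + T)) (by linarith)
    (by linarith) (by gcongr; linarith) (by linarith)
  have a1 : 5000 * (θ / κ) * (72 * (G + T)) ^ 2 ≤ 5000 * (e / 10 ^ 9) * (72 * (G + T)) ^ 2 := by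
    gcongr
  have a2 : (G + T) ^ 2 ≤ 2 * G ^ 2 + 2 * T ^ 2 := by nlinarith [sq_nonneg (G - T)]
  have a3 : e * (G + T) ^ 2 ≤ e * (2 * G ^ 2 + 2 * T ^ 2) := by gcongr
  have a4 := young (A := 4752 * K) (x := G) (y := T) (half_pos e0)
  have a5 : 0 ≤ e * G ^ 2 := by positivity
  have a6 : 0 ≤ e * T ^ 2 := by positivity
  nlinarith

/-- thick range -/
theorem Err_thick {K κ e η A : ℝ} (K0 : 0 ≤ K) (κ0 : 0 < κ) (κ1 : κ ≤ 1) (e0 : 0 < e)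
    (η0 : 0 < η) (η1 : η ≤ 1) (A0 : 0 ≤ A) :
    ∃ θ C : ℝ, 0 < θ ∧ 0 ≤ C ∧ ∀ b G s u T : ℝ, 0 ≤ G → 0 ≤ s → 0 ≤ u →
      0 ≤ T → η ≤ b → s ≤ θ → u ≤ θ → G ≤ 2 * s + 2 * T + 2 * u + 28 * b * (u + s) →
      Err K κ b G s u T + A * G ^ 2 ≤ e * b ^ 2 + C * T ^ 2 := by
  obtain ⟨μ, μ0, μ1, μ2, μ3, μ4⟩ : ∃ μ : ℝ, 0 < μ ∧ μ ≤ 1 / 60 ∧ μ / κ ≤ e / 10 ^ 5 ∧
      A * μ ≤ e / 10 ^ 5 ∧ True := by
    refine ⟨min (1 / 60) (min (e * κ / 10 ^ 5) (e / 10 ^ 5 / (A + 1))), by positivity,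
      min_le_left _ _, ?_, ?_, trivial⟩
    · rw [div_le_iff₀ κ0]
      exact ((min_le_right _ _).trans (min_le_left _ _)).trans_eq (by ring)
    · have h1 : min (1 / 60) (min (e * κ / 10 ^ 5) (e / 10 ^ 5 / (A + 1))) ≤
        e / 10 ^ 5 / (A + 1) := (min_le_right _ _).trans (min_le_right _ _)
      rw [le_div_iff₀ (by positivity)] at h1
      have h2 : 0 < min (1 / 60) (min (e * κ / 10 ^ 5) (e / 10 ^ 5 / (A + 1))) := by positivity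
      nlinarith
  refine ⟨μ * η, e + 132 * K + (66 * K) ^ 2 / (4 * (e / 4)) + (104 + 1164 * K ^ 2) / κ + 8 * A,
    by positivity, by positivity, fun b G s u T G0 s0 u0 T0 hb hs hu hG => ?_⟩
  have b0 : 0 < b := η0.trans_le hb
  have m1 : μ * η ≤ μ := mul_le_of_le_one_right μ0.le η1
  have m2 : μ * η ≤ μ * b := by gcongr
  have m3 : b * (u + s) ≤ b * (μ + μ) := by gcongr <;> linarith
  have g1 : G ≤ 60 * (μ * b) + 2 * T := by nlinarith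
  have m4 : 60 * (μ * b) ≤ b := by nlinarith
  have m5 : 0 ≤ μ * b := by positivity
  have h := Err_le K0 κ0 κ1 b0.le G0 s0 u0 T0 μ0.le (by linarith) (hs.trans m1) (hu.trans m1)
    (w := b + 2 * T) (by linarith) (by linarith) (by nlinarith) (by linarith)
  have a1 : 5000 * (μ / κ) * (b + 2 * T) ^ 2 ≤ 5000 * (e / 10 ^ 5) * (2 * b ^ 2 + 8 * T ^ 2) := by
    gcongr; nlinarith [sq_nonneg (b - 2 * T)]
  have a2 := young (A := 66 * K) (x := b) (y := T) (show 0 < e / 4 by positivity)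
  have a3 : G ^ 2 ≤ 7200 * (μ * b) ^ 2 + 8 * T ^ 2 := by
    have := pow_le_pow_left₀ G0 g1 2
    nlinarith [sq_nonneg (60 * (μ * b) - 2 * T)]
  have a4 : A * G ^ 2 ≤ A * (7200 * (μ * b) ^ 2 + 8 * T ^ 2) := by gcongr
  have a5 : A * (μ * b) ^ 2 ≤ e / 10 ^ 5 * b ^ 2 := by
    calc A * (μ * b) ^ 2 = A * μ * μ * b ^ 2 := by ring
      _ ≤ e / 10 ^ 5 * 1 * b ^ 2 := by gcongr; linarith
      _ = _ := by ring
  have a6 : 0 ≤ e * b ^ 2 := by positivity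
  have a7 : 0 ≤ e * T ^ 2 := by positivity
  nlinarith

/-- the potential of a cap is negative -/
theorem pc_cap {r d sg cs h κ θ : ℝ} (r0 : 0 < r) (θ1 : θ ≤ 1 / 100) (hd : |d| ≤ θ * r)
    (hs : |1 - sg| ≤ θ) (hc : 1 - 2 * θ ≤ cs) (h0 : 0 ≤ h) (h1 : h ≤ θ) (κ0 : 0 ≤ κ)
    (κ1 : κ ≤ 1 / 2) : sg * ((1 + κ) * (-2 * r - d) ^ 2) / (sg * (r - d) + (3 - h) * r) +
      (sg * (-2 * r - d) * cs - (r - d) * (1 - sg ^ 2) / 2) ≤ 0 := by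
  obtain ⟨d1, d2⟩ := abs_le.1 hd
  obtain ⟨s1, s2⟩ := abs_le.1 hs
  have θ0 : 0 ≤ θ := h0.trans h1
  have d3 : θ * r ≤ 1 / 100 * r := by gcongr
  have a0 : 98 / 100 * r ≤ sg * (r - d) := by
    calc 98 / 100 * r ≤ 99 / 100 * (99 / 100 * r) := by linarith
      _ ≤ _ := by gcongr <;> linarith
  have y0 : 39 / 10 * r ≤ sg * (r - d) + (3 - h) * r := by nlinarith
  set A := 2 * r + d with hA
  have A0 : 199 / 100 * r ≤ A := by linarith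
  have A1 : A ≤ 201 / 100 * r := by linarith
  have a1 : sg * ((1 + κ) * (-2 * r - d) ^ 2) / (sg * (r - d) + (3 - h) * r) ≤
      sg * A * (78 / 100) := by
    rw [div_le_iff₀ (by linarith)]
    calc sg * ((1 + κ) * (-2 * r - d) ^ 2) = sg * A * ((1 + κ) * A) := by rw [hA]; ring
      _ ≤ sg * A * (3 / 2 * (201 / 100 * r)) := by gcongr <;> nlinarith
      _ ≤ sg * A * (78 / 100 * (39 / 10 * r)) :=
          mul_le_mul_of_nonneg_left (by linarith) (by nlinarith)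
      _ ≤ sg * A * (78 / 100 * (sg * (r - d) + (3 - h) * r)) := by gcongr; nlinarith
      _ = _ := by ring
  have a2 : 99 / 100 * (199 / 100 * r) ≤ sg * A := by gcongr <;> linarith
  have a3 : sg * A * (98 / 100) ≤ sg * A * cs := by gcongr <;> nlinarith
  have a4 : (r - d) * (sg ^ 2 - 1) ≤ 2 * r * (3 / 100) := by
    calc (r - d) * (sg ^ 2 - 1) ≤ (r - d) * (3 / 100) := by gcongr <;> nlinarith
      _ ≤ _ := by gcongr; linarith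
  have e : sg * (-2 * r - d) * cs = -(sg * A * cs) := by rw [hA]; ring
  rw [e]
  nlinarith

/-- the potential of a rim -/
theorem pc_rim {r d sg cs η al κ θ : ℝ} (r0 : 0 < r) (θ1 : θ ≤ 1 / 100) (hd : |d| ≤ θ * r)
    (hs : |1 - sg| ≤ θ) (hc0 : 0 ≤ cs) (hc : cs ≤ 1) (η0 : 0 ≤ η) (η1 : η ≤ θ)
    (ha : |al - 1| ≤ θ) (κ0 : 0 ≤ κ) (κ1 : κ ≤ 1 / 2) :
    sg * ((1 + κ) * (al * r - d) ^ 2) / (sg * (r - d) + -η * r) +
      (sg * (al * r - d) * cs - (r - d) * (1 - sg ^ 2) / 2) ≤ (2 + κ + 30 * θ) * r := by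
  obtain ⟨d1, d2⟩ := abs_le.1 hd
  obtain ⟨s1, s2⟩ := abs_le.1 hs
  obtain ⟨l1, l2⟩ := abs_le.1 ha
  have θ0 : 0 ≤ θ := η0.trans η1
  have d3 : θ * r ≤ 1 / 100 * r := by gcongr
  have a0 : (1 - θ) * ((1 - θ) * r) ≤ sg * (r - d) := by gcongr <;> nlinarith
  have y0 : (1 - 3 * θ) * r ≤ sg * (r - d) + -η * r := by nlinarith [mul_nonneg (sq_nonneg θ) r0.le]
  set A := al * r - d
  have A0 : 0 ≤ A := by nlinarith
  have A1 : A ≤ (1 + 2 * θ) * r := by nlinarith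
  have a1 : sg * ((1 + κ) * A ^ 2) / (sg * (r - d) + -η * r) ≤ (1 + κ) * (1 + 12 * θ) * r := by
    rw [div_le_iff₀ (by nlinarith)]
    have c1 : (1 + θ) * (1 + 2 * θ) ^ 2 ≤ (1 + 12 * θ) * (1 - 3 * θ) := by nlinarith
    calc sg * ((1 + κ) * A ^ 2) ≤ (1 + θ) * ((1 + κ) * ((1 + 2 * θ) * r) ^ 2) := by
          gcongr; linarith
      _ = (1 + κ) * r ^ 2 * ((1 + θ) * (1 + 2 * θ) ^ 2) := by ring
      _ ≤ (1 + κ) * r ^ 2 * ((1 + 12 * θ) * (1 - 3 * θ)) := by gcongr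
      _ = (1 + κ) * (1 + 12 * θ) * r * ((1 - 3 * θ) * r) := by ring
      _ ≤ _ := by gcongr
  have a2 : sg * A * cs ≤ (1 + θ) * ((1 + 2 * θ) * r) * 1 := by gcongr; linarith
  have a4 : (r - d) * (sg ^ 2 - 1) ≤ 2 * r * (3 * θ) := by
    calc (r - d) * (sg ^ 2 - 1) ≤ (r - d) * (3 * θ) := by gcongr <;> nlinarith
      _ ≤ _ := by gcongr; linarith
  have a5 : 0 ≤ θ * r := by positivity
  have a6 : κ * (θ * r) ≤ 1 / 2 * (θ * r) := by gcongr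
  have a7 : θ * (θ * r) ≤ 1 / 100 * (θ * r) := by gcongr
  nlinarith

end

end Crest.Agent.N067.X3
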