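import Crest.Agent.N067.X3.Cr
import Crest.Agent.N067.V.BallM
import Crest.Agent.N067.X3.Sc

/-!
# Row 67, block X2 (helper93): the estimate of `RH`
-/

set_option autoImplicit false

open MeasureTheory Laplacian InnerProductSpace Topology Filter Set Metric
open scoped RealInnerProductSpace ContDiff Gradient

namespace Crest.Agent.N067.X3

open Crest.Agent.R077 Crest.Agent.N067.V Crest.Agent.N067.M Crest.Agent.N067.X2

noncomputable section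

variable {n : ℕ} {v : EE n → ℝ} {x z τ om g : EE n} {r al ga sg θ K κ : ℝ}

/-- the bounds on a sphere contact -/
structure Bd (v : EE n → ℝ) (r : ℝ) (x τ om : EE n) (al ga sg θ K : ℝ) : Prop where
  θ1 : θ ≤ 1 / 100
  r1 : 1 ≤ r
  t : tt v x ≤ θ
  d : |dd v x| ≤ θ * r
  u : |1 - sg| ≤ θ
  s : ‖Pj (nu v x) om‖ ≤ θ
  cs : 1 - 2 * θ ≤ ⟪nu v x, om⟫
  hal : |al| ≤ 2
  y : r / 2 ≤ sg * (r - dd v x) + ga * r
  tau : ‖τ‖ ≤ 4 * ‖Pj (nu v x) om‖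
  L1 : 2 - 8 * θ ≤ La v x τ om al ga sg
  L2 : La v x τ om al ga sg ≤ 3
  K0 : 0 ≤ K
  bu : ‖Bu v x‖ ≤ K * tt v x

/-- the coefficient of the potential -/
def PC (v : EE n → ℝ) (r : ℝ) (x om : EE n) (al ga sg κ : ℝ) : ℝ :=
  sg * ((1 + κ) * (al * r - dd v x) ^ 2) / (sg * (r - dd v x) + ga * r) +
    (sg * (al * r - dd v x) * ⟪nu v x, om⟫ - (r - dd v x) * (1 - sg ^ 2) / 2)

theorem ip_le {a b : EE n} {A B : ℝ} (ha : ‖a‖ ≤ A) (hb : ‖b‖ ≤ B) : |⟪a, b⟫| ≤ A * B :=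
  (abs_real_inner_le_norm a b).trans
    (mul_le_mul ha hb (norm_nonneg _) ((norm_nonneg _).trans ha))

theorem mul_le' {a b A B : ℝ} (ha : |a| ≤ A) (hb : |b| ≤ B) : |a * b| ≤ A * B := by
  rw [abs_mul]; exact mul_le_mul ha hb (abs_nonneg _) ((abs_nonneg _).trans ha)

theorem nsm {c C A : ℝ} {a : EE n} (hc : |c| ≤ C) (ha : ‖a‖ ≤ A) : ‖c • a‖ ≤ C * A := by
  rw [norm_smul, Real.norm_eq_abs]
  exact mul_le_mul hc ha (norm_nonneg _) ((abs_nonneg _).trans hc)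

theorem sq4 (a b c d : ℝ) : (a + b + c + d) ^ 2 ≤ 4 * (a ^ 2 + b ^ 2 + c ^ 2 + d ^ 2) := by
  nlinarith [sq_nonneg (a - b), sq_nonneg (a - c), sq_nonneg (a - d), sq_nonneg (b - c),
    sq_nonneg (b - d), sq_nonneg (c - d)]

theorem t2_bd {N tz : ℝ} (h0 : 9 / 10 ≤ N) (h1 : N ≤ 1) (z0 : 0 ≤ tz) (z1 : tz ≤ 1) :
    |(tz - 1 - N ^ 2) / (2 * N)| ≤ 2 := by
  rw [abs_div, abs_of_pos (by linarith : 0 < 2 * N), div_le_iff₀ (by linarith)]
  exact abs_le.2 ⟨by nlinarith, by nlinarith⟩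

theorem le_of_sq_add {A a b : ℝ} (hA : 0 ≤ A) (h : A ^ 2 = a ^ 2 + b ^ 2) : a ≤ A ∧ b ≤ A :=
  ⟨(abs_le_of_sq_le_sq' (by nlinarith [sq_nonneg b]) hA).2,
    (abs_le_of_sq_le_sq' (by nlinarith [sq_nonneg a]) hA).2⟩

/-- numerical consequences -/
structure Nu (v : EE n → ℝ) (r : ℝ) (x τ om : EE n) (al sg : ℝ) : Prop where
  N0 : 9 / 10 ≤ NN v x
  N1 : NN v x ≤ 1
  Nt : 1 - NN v x ≤ tt v x
  t0 : 0 ≤ tt v x
  s0 : 9 / 10 ≤ sg
  s1 : sg ≤ 11 / 10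
  c0 : 9 / 10 ≤ ⟪nu v x, om⟫
  c1 : ⟪nu v x, om⟫ ≤ 1
  L0 : r / 2 ≤ r - dd v x
  L1 : r - dd v x ≤ 2 * r
  a : |al * r - dd v x| ≤ 3 * r
  F : |1 - sg ^ 2| ≤ 3 * |1 - sg|
  Ao : ‖AA v x om‖ ≤ 2 * (Bn v x * ‖Pj (nu v x) om‖)
  At : ‖AA v x τ‖ ≤ 8 * (Bn v x * ‖Pj (nu v x) om‖)
  An : |⟪nu v x, AA v x om⟫| ≤ 2 * (‖Bu v x‖ * ‖Pj (nu v x) om‖)
  Bu : ‖Bu v x‖ ≤ Bn v x
  ν : ‖nu v x‖ = 1

theorem Bd.num (B : Bd v r x τ om al ga sg θ K) (D : SD v r x z τ om al ga sg) :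
    Nu v r x τ om al sg := by
  have hν := Wd.norm_nu D.hN
  have t0 := D.hv.tt_nonneg x
  have eN : tt v x = 1 - NN v x ^ 2 := rfl
  have N0 := D.hN
  have θ1 := B.θ1
  have N1 : NN v x ≤ 1 := by nlinarith
  have Nt : 1 - NN v x ≤ tt v x := by nlinarith
  have N9 : 9 / 10 ≤ NN v x := by linarith [B.t]
  obtain ⟨d1, d2⟩ := abs_le.1 B.d
  obtain ⟨s1, s2⟩ := abs_le.1 B.u
  have r0 : 0 < r := by linarith [B.r1]
  have d3 : θ * r ≤ 1 / 100 * r := by gcongr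
  have iN : |(NN v x)⁻¹| ≤ 2 := by
    rw [abs_of_pos (inv_pos.2 N0), inv_le_comm₀ N0 two_pos]; linarith
  have B0 : 0 ≤ Bn v x := Real.sqrt_nonneg _
  have hA : ∀ u, ‖AA v x u‖ ≤ 2 * (Bn v x * ‖Pj (nu v x) u‖) := fun u => by
    rw [AA_apply]; exact nsm iN (Bl.norm_hop D.hv x _)
  have pτ : Pj (nu v x) τ = τ := by rw [Pj, real_inner_comm, D.hτ, zero_smul, sub_zero]
  refine ⟨N9, N1, Nt, t0, by linarith, by linarith, by linarith [B.cs], ?_, by linarith,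
    by linarith, ?_, ?_, hA om, ?_, ?_, ?_, hν⟩
  · exact (le_abs_self _).trans ((ip_le hν.le D.ho.le).trans_eq (one_mul _))
  · have := mul_le' B.hal (abs_of_pos r0).le
    exact (abs_sub _ _).trans (by linarith [B.d])
  · rw [show 1 - sg ^ 2 = (1 + sg) * (1 - sg) by ring]
    exact mul_le' (abs_le.2 ⟨by linarith, by linarith⟩) le_rfl
  · refine (hA τ).trans ?_
    rw [pτ]
    have := mul_le_mul_of_nonneg_left B.tau B0
    linarith
  · rw [AA_apply, real_inner_smul_right, ← hop_symm (c2_of D.hv.dd_sm x)]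
    exact mul_le' iN (ip_le le_rfl le_rfl)
  · exact (Bl.norm_hop D.hv x _).trans_eq (by rw [hν, mul_one])

set_option maxHeartbeats 1000000 in
theorem RH_le (B : Bd v r x τ om al ga sg θ K) (D : SD v r x z τ om al ga sg)
    (ht : tt v x * (r - dd v x) ≤ √2 * NN v x) (hκ : 0 < κ) :
    r * RH v r x z τ om g al ga sg κ ≤ PC v r x om al ga sg κ * (r * T2 v x / NN v x) +
      Err K κ (r * Bn v x) ‖g‖ ‖Pj (nu v x) om‖ |1 - sg| (r * tt v x) := by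
  obtain ⟨N0, N1, Nt, t0, s0, s1, c0, c1, L0, L1, ha, hF, Ao, At, An, -, hν⟩ := B.num D
  have hL := D.hL
  have hN := D.hN
  have hy := D.hy
  have hbu := B.bu
  have K0 := B.K0
  have r1 := B.r1
  have r0 : 0 < r := by linarith
  have B0 : 0 ≤ Bn v x := Real.sqrt_nonneg _
  have eN : tt v x = 1 - NN v x ^ 2 := rfl
  have tz0 := D.hv.tt_nonneg z
  have tz1 := tt_le_one v z
  have e1 := EE_nonneg (x := x) (φ := NN v x / (r - dd v x)) D.hv (z := z)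
    (by rw [← mul_div_assoc, le_div_iff₀ hL]; exact ht) (by rw [D.tz, D.dz, eN]; field_simp; ring)
  have e0 : NN v x * (T2 v x / NN v x ^ 2) = T2 v x / NN v x := by field_simp
  have e3 : r * RH v r x z τ om g al ga sg κ =
      -(r * (√2 * (v z - v x) * tt v z - qq v x * (dd v z - dd v x))) +
      r * (√2 * v x * (1 - NN v x) ^ 2 * ((tt v z - 1 - NN v x ^ 2) / (2 * NN v x) -
        NN v x * sg * ⟪nu v x, om⟫)) +
      PC v r x om al ga sg κ * (r * T2 v x / NN v x) +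
      r * (NN v x * sg * (2 * (1 + κ⁻¹) * (‖Pj (nu v x) om‖ ^ 2 * ‖Xv v r x τ om g al‖ ^ 2 +
        ‖τ‖ ^ 2 * ‖g‖ ^ 2)) / (sg * (r - dd v x) + ga * r)) +
      r * (2 * sg * (al * r - dd v x) * ⟪AA v x om, Bu v x⟫) -
      r * (2 * NN v x * sg * ⟪al • g - NN v x • nu v x, AA v x om⟫) +
      r * (2 * NN v x * sg * ⟪nu v x, om⟫ * ⟪g, AA v x τ⟫) +
      r * (2 * sg * r * (NN v x * ⟪AA v x τ, AA v x om⟫ - ⟪nu v x, om⟫ * ⟪AA v x τ, Bu v x⟫)) +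
      r * (NN v x * ‖Qv v r x g sg‖ ^ 2 / sg ^ 2 / (r - dd v x)) +
      r * (2 * (1 - sg) * ⟪Bu v x, nu v x⟫) +
      r * ((r - dd v x) * (1 - sg ^ 2) * ‖Bu v x‖ ^ 2 / NN v x) := by
    rw [RH, PC]
    linear_combination (r * sg * (1 + κ) * (al * r - dd v x) ^ 2 /
      (sg * (r - dd v x) + ga * r)) * e0
  set N := NN v x
  set t := tt v x
  set s := ‖Pj (nu v x) om‖
  set u := |1 - sg|
  set G := ‖g‖
  set b := r * Bn v x with hb
  set T := r * t with hT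
  set cs := ⟪nu v x, om⟫ with hcs
  set L := r - dd v x
  set a := al * r - dd v x
  have s0' : 0 ≤ s := norm_nonneg _
  have u0 : 0 ≤ u := abs_nonneg _
  have G0 : 0 ≤ G := norm_nonneg _
  have tT : t ≤ T := le_mul_of_one_le_left t0 r1
  have T0 : 0 ≤ T := t0.trans tT
  have aN : |N| ≤ 1 := (abs_of_pos hN).trans_le N1
  have aS : |sg| ≤ 2 := abs_le.2 ⟨by linarith, by linarith⟩
  have aC : |cs| ≤ 1 := abs_le.2 ⟨by linarith, c1⟩
  have aR : |r| ≤ r := (abs_of_pos r0).le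
  have a2 : |(2 : ℝ)| ≤ 2 := by norm_num
  have iN : |N⁻¹| ≤ 2 := by
    rw [abs_of_pos (inv_pos.2 hN), inv_le_comm₀ hN two_pos]; linarith
  -- term 2
  have h2 : r * (√2 * v x * (1 - N) ^ 2 * ((tt v z - 1 - N ^ 2) / (2 * N) - N * sg * cs)) ≤
      8 * T ^ 2 := by
    have b1 : |√2| ≤ 2 := by
      rw [abs_of_nonneg (Real.sqrt_nonneg _)]; exact Real.sqrt_le_iff.2 ⟨by norm_num, by norm_num⟩
    have b2 : |(1 - N) ^ 2| ≤ t ^ 2 := by
      rw [abs_of_nonneg (sq_nonneg _)]; exact pow_le_pow_left₀ (by linarith) Nt 2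
    have b3 := t2_bd N0 N1 tz0 tz1
    have b4 := (abs_sub _ _).trans (add_le_add b3 (mul_le' (mul_le' aN aS) aC))
    have b5 := (le_abs_self _).trans
      (mul_le' aR (mul_le' (mul_le' (mul_le' b1 (D.hv.lt x).le) b2) b4))
    have b6 : r * t ^ 2 ≤ T ^ 2 :=
      (le_mul_of_one_le_left (by positivity) r1).trans_eq (by rw [hT]; ring)
    linarith
  -- term 3
  have hX : ‖Xv v r x τ om g al‖ ≤ 8 * (b * s) + T + s + 2 * G := by
    have b1 : |(1 + ⟪om, nu v x⟫)⁻¹| ≤ 1 := by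
      rw [real_inner_comm, ← hcs, abs_of_pos (by positivity)]
      exact inv_le_one_of_one_le₀ (by linarith)
    have b2 := nsm aR At
    have b3 := nsm (c := 1 - N) (C := T) (abs_le.2 ⟨by linarith, by linarith⟩) hν.le
    have b4 := nsm b1 (le_refl s)
    have b5 := nsm B.hal (le_refl G)
    refine (norm_sub_le _ _).trans (add_le_add ((norm_sub_le _ _).trans (add_le_add
      ((norm_sub_le _ _).trans (add_le_add (b2.trans_eq ?_) (b3.trans_eq ?_))) (b4.trans_eq ?_))) b5)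
    · rw [hb]; ring
    · ring
    · ring
  have h3 : r * (N * sg * (2 * (1 + κ⁻¹) * (s ^ 2 * ‖Xv v r x τ om g al‖ ^ 2 + ‖τ‖ ^ 2 * G ^ 2)) /
      (sg * L + ga * r)) ≤
      8 * (1 + κ⁻¹) * (s ^ 2 * (256 * (b * s) ^ 2 + 4 * T ^ 2 + 4 * s ^ 2 + 32 * G ^ 2)) := by
    have b1 : ‖Xv v r x τ om g al‖ ^ 2 ≤ 256 * (b * s) ^ 2 + 4 * T ^ 2 + 4 * s ^ 2 + 16 * G ^ 2 := by
      exact (pow_le_pow_left₀ (norm_nonneg _) hX 2).trans ((sq4 _ _ _ _).trans_eq (by ring))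
    have b2 : ‖τ‖ ^ 2 ≤ 16 * s ^ 2 :=
      (pow_le_pow_left₀ (norm_nonneg _) B.tau 2).trans_eq (by ring)
    have b3 : N * sg ≤ 2 := (le_abs_self _).trans ((mul_le' aN aS).trans_eq (one_mul _))
    have b4 := B.y
    calc _ ≤ r * (2 * (2 * (1 + κ⁻¹) * (s ^ 2 * (256 * (b * s) ^ 2 + 4 * T ^ 2 + 4 * s ^ 2 +
          16 * G ^ 2) + 16 * s ^ 2 * G ^ 2)) / (r / 2)) := by gcongr
      _ = _ := by field_simp; ring
  have h5 := (le_abs_self _).trans (mul_le' aR (mul_le' (mul_le' (mul_le' a2 aS) ha) (ip_le Ao hbu)))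
  have An' : |⟪nu v x, AA v x om⟫| ≤ 2 * (K * t * s) := An.trans (by gcongr)
  have h6 : |⟪al • g - N • nu v x, AA v x om⟫| ≤ 2 * (G * (2 * (Bn v x * s))) + 1 * (2 * (K * t * s)) := by
    rw [inner_sub_left, real_inner_smul_left, real_inner_smul_left]
    exact (abs_sub _ _).trans (add_le_add (mul_le' B.hal (ip_le le_rfl Ao)) (mul_le' aN An'))
  have h6' := (neg_le_abs _).trans (mul_le' aR (mul_le' (mul_le' (mul_le' a2 aN) aS) h6))
  have h7 := (le_abs_self _).trans (mul_le' aR (mul_le' (mul_le' (mul_le' (mul_le' a2 aN) aS) aC)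
    (ip_le (le_refl G) At)))
  have h8 := (le_abs_self _).trans (mul_le' aR (mul_le' (mul_le' (mul_le' a2 aS) aR)
    ((abs_sub _ _).trans (add_le_add (mul_le' aN (ip_le At Ao)) (mul_le' aC (ip_le At hbu))))))
  have aL : |L| ≤ 2 * r := (abs_of_pos hL).trans_le L1
  have hQ : ‖Qv v r x g sg‖ ≤ u * (2 * G + T + u + 6 * K * T) := by
    have b1 : |(1 - sg ^ 2) / 2| ≤ 2 * u := by rw [abs_div, abs_two]; linarith
    have b2 : |1 - N * (1 + sg) / 2| ≤ T + u := by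
      rw [show 1 - N * (1 + sg) / 2 = (1 - N) + N * (1 - sg) / 2 by ring]
      refine (abs_add_le _ _).trans (add_le_add (abs_le.2 ⟨by linarith, by linarith⟩) ?_)
      have := mul_le' aN (le_refl u)
      rw [abs_div, abs_two]; linarith
    have b3 : |L * (1 - sg ^ 2) / 2 / N| ≤ 6 * (r * u) := by
      have := mul_le' (mul_le' aL hF) iN
      rw [show L * (1 - sg ^ 2) / 2 / N = L * (1 - sg ^ 2) * N⁻¹ / 2 by ring, abs_div, abs_two]
      linarith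
    refine norm_add₃_le.trans ((add_le_add (add_le_add (nsm b1 (le_refl G))
      (nsm (mul_le' (le_refl u) b2) hν.le)) (nsm b3 hbu)).trans_eq ?_)
    rw [hT]; ring
  have h9 : r * (N * ‖Qv v r x g sg‖ ^ 2 / sg ^ 2 / L) ≤
      32 * (u ^ 2 * (4 * G ^ 2 + T ^ 2 + u ^ 2 + 36 * K ^ 2 * T ^ 2)) := by
    have b1 : ‖Qv v r x g sg‖ ^ 2 ≤ 4 * (u ^ 2 * (4 * G ^ 2 + T ^ 2 + u ^ 2 + 36 * K ^ 2 * T ^ 2)) := by
      refine (pow_le_pow_left₀ (norm_nonneg _) hQ 2).trans ?_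
      rw [mul_pow]
      exact (mul_le_mul_of_nonneg_left (sq4 (2 * G) T u (6 * K * T)) (sq_nonneg u)).trans_eq
        (by ring)
    calc _ ≤ r * (1 * (4 * (u ^ 2 * (4 * G ^ 2 + T ^ 2 + u ^ 2 + 36 * K ^ 2 * T ^ 2))) /
          (1 / 2) ^ 2 / (r / 2)) := by gcongr; linarith
      _ = _ := by field_simp; ring
  have h10 := (le_abs_self _).trans (mul_le' aR (mul_le' (mul_le' a2 (le_refl u)) (ip_le hbu hν.le)))
  have h11 : r * (L * (1 - sg ^ 2) * ‖Bu v x‖ ^ 2 / N) ≤ 12 * K ^ 2 * T ^ 2 := by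
    have b1 : |‖Bu v x‖ ^ 2| ≤ (K * t) ^ 2 := by
      rw [abs_of_nonneg (sq_nonneg _)]; exact pow_le_pow_left₀ (norm_nonneg _) hbu 2
    have b2 : |1 - sg ^ 2| ≤ 3 := hF.trans (by linarith [B.u, B.θ1])
    rw [div_eq_mul_inv]
    refine ((le_abs_self _).trans (mul_le' aR (mul_le' (mul_le' (mul_le' aL b2) b1) iN))).trans_eq ?_
    rw [hT]; ring
  have e2 : 0 ≤ r * (√2 * (v z - v x) * tt v z - qq v x * (dd v z - dd v x)) := by positivity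
  rw [e3, Err]
  have f5 : r * (2 * 2 * (3 * r) * (2 * (Bn v x * s) * (K * t))) = 24 * K * (b * s * T) := by
    rw [hb, hT]; ring
  have f6 : r * (2 * 1 * 2 * (2 * (G * (2 * (Bn v x * s))) + 1 * (2 * (K * t * s)))) =
      16 * (G * (b * s)) + 8 * K * (s * T) := by rw [hb, hT]; ring
  have f7 : r * (2 * 1 * 2 * 1 * (G * (8 * (Bn v x * s)))) = 32 * (G * (b * s)) := by
    rw [hb]; ring
  have f8 : r * (2 * 2 * r * (1 * (8 * (Bn v x * s) * (2 * (Bn v x * s))) +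
      1 * (8 * (Bn v x * s) * (K * t)))) = 64 * (b * s) ^ 2 + 32 * K * (b * s * T) := by
    rw [hb, hT]; ring
  have f10 : r * (2 * u * (K * t * 1)) = 2 * K * (u * T) := by rw [hT]; ring
  linarith

set_option maxHeartbeats 1000000 in
/-- what `La • g = Ga` gives -/
theorem grad_bd (B : Bd v r x τ om al ga sg θ K) (D : SD v r x z τ om al ga sg)
    (hg : La v x τ om al ga sg • g = Ga v r x τ om al sg) :
    ‖g‖ ≤ 2 * ‖Pj (nu v x) om‖ + 2 * (r * tt v x) + 2 * |1 - sg| +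
      28 * (r * Bn v x) * (|1 - sg| + ‖Pj (nu v x) om‖) ∧
    (r * Bn v x ≤ 1 / 1000 → |1 - sg| + ‖Pj (nu v x) om‖ ≤ 72 * (‖g‖ + r * tt v x)) := by
  obtain ⟨N0, N1, Nt, t0, s0, s1, c0, c1, L0, L1, ha, hF, Ao, At, -, hB, hν⟩ := B.num D
  have hL := D.hL
  have hN := D.hN
  have r1 := B.r1
  have r0 : 0 < r := by linarith
  have B0 : 0 ≤ Bn v x := Real.sqrt_nonneg _
  have eN : tt v x = 1 - NN v x ^ 2 := rfl
  have tz0 := D.hv.tt_nonneg z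
  have ez := D.tz
  have l1 : 1 ≤ La v x τ om al ga sg := by linarith [B.L1, B.θ1]
  have l2 := B.L2
  have oP := inner_Pj hν om
  set E : EE n := -(((r - dd v x) * (1 - sg ^ 2) / 2) • Bu v x) -
    (NN v x * sg * (al * r - dd v x)) • AA v x om +
    (NN v x * sg * r * ⟪nu v x, om⟫) • AA v x τ with hE
  set m := NN v x - NN v x ^ 2 * (1 + sg ^ 2) / 2 + NN v x * sg * ⟪nu v x, om⟫ * (1 - NN v x)
    with hm
  have eG : La v x τ om al ga sg • g - E = -(NN v x * sg) • Pj (nu v x) om - m • nu v x := by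
    rw [hg, Ga, hE, hm]; abel
  set N := NN v x
  set t := tt v x
  set P := Pj (nu v x) om
  set u := |1 - sg|
  set b := r * Bn v x with hb
  set cs := ⟪nu v x, om⟫
  set Λ := La v x τ om al ga sg
  have s0' := norm_nonneg P
  have u0 : 0 ≤ u := abs_nonneg _
  have G0 := norm_nonneg g
  have b0 : 0 ≤ b := by positivity
  have tT : t ≤ r * t := le_mul_of_one_le_left t0 r1
  have aN : |N| ≤ 1 := (abs_of_pos hN).trans_le N1
  have aS : |sg| ≤ 2 := abs_le.2 ⟨by linarith, by linarith⟩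
  have aC : |cs| ≤ 1 := abs_le.2 ⟨by linarith, c1⟩
  have aR : |r| ≤ r := (abs_of_pos r0).le
  have hE' : ‖E‖ ≤ 28 * b * (u + ‖P‖) := by
    have b1 : |(r - dd v x) * (1 - sg ^ 2) / 2| ≤ 3 * (r * u) := by
      have := mul_le' ((abs_of_pos hL).trans_le L1) hF
      rw [abs_div, abs_two]; linarith
    have b2 := nsm b1 hB
    have b3 := nsm (mul_le' (mul_le' aN aS) ha) Ao
    have b4 := nsm (mul_le' (mul_le' (mul_le' aN aS) aR) aC) At
    refine ((norm_add_le _ _).trans (add_le_add ((norm_sub_le _ _).trans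
      (add_le_add ((norm_neg _).trans_le b2) b3)) b4)).trans ?_
    have : 0 ≤ b * u := by positivity
    have e : 3 * (r * u) * Bn v x + 1 * 2 * (3 * r) * (2 * (Bn v x * ‖P‖)) +
        1 * 2 * r * 1 * (8 * (Bn v x * ‖P‖)) = 3 * (b * u) + 28 * (b * ‖P‖) := by rw [hb]; ring
    linarith
  have n2 : ‖Λ • g - E‖ ^ 2 = (N * sg * ‖P‖) ^ 2 + m ^ 2 := by
    rw [eG, norm_sub_sq_real, real_inner_smul_left, real_inner_smul_right, oP, norm_smul, norm_smul,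
      hν, Real.norm_eq_abs, Real.norm_eq_abs, mul_pow, mul_one, sq_abs, sq_abs]
    ring
  have nl : ‖Λ • g‖ = Λ * ‖g‖ := by rw [norm_smul, Real.norm_of_nonneg (by linarith)]
  have q0 : 0 ≤ N * sg * cs := by positivity
  have q1 : N * sg * cs ≤ 2 := (le_abs_self _).trans ((mul_le' (mul_le' aN aS) aC).trans (by norm_num))
  have em : m = (t + tt v z) / 2 - (1 - N) * (1 - N * sg * cs) := by rw [hm, ez, eN]; ring
  have q2 : |(1 - N) * (1 - N * sg * cs)| ≤ t * 1 :=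
    mul_le' (abs_le.2 ⟨by linarith, Nt⟩) (abs_le.2 ⟨by linarith, by linarith⟩)
  obtain ⟨q3, q4⟩ := abs_le.1 q2
  have ezt : tt v z - t = N ^ 2 * (1 - sg ^ 2) := by rw [ez, eN]; ring
  constructor
  · have b1 : |tt v z - t| ≤ 1 * (3 * u) := by
      rw [ezt]
      exact mul_le' (by rw [abs_of_nonneg (sq_nonneg _)]; exact pow_le_one₀ hN.le N1) hF
    obtain ⟨b2, b3⟩ := abs_le.1 b1
    have b4 : |m| ≤ 2 * t + 2 * u := abs_le.2 ⟨by linarith, by linarith⟩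
    have b5 : ‖Λ • g - E‖ ≤ 2 * ‖P‖ + (2 * t + 2 * u) * 1 := by
      rw [eG]
      refine (norm_sub_le _ _).trans (add_le_add (nsm ?_ le_rfl) (nsm b4 hν.le))
      rw [abs_neg]; exact (mul_le' aN aS).trans_eq (one_mul _)
    have b6 := norm_sub_norm_le (Λ • g) E
    have b7 : ‖g‖ ≤ Λ * ‖g‖ := le_mul_of_one_le_left G0 l1
    linarith
  · intro hb1
    have b1 : ‖Λ • g - E‖ ≤ 3 * ‖g‖ + 28 * b * (u + ‖P‖) := by
      have := mul_le_mul_of_nonneg_right l2 G0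
      linarith [norm_sub_le (Λ • g) E]
    obtain ⟨b2, b3⟩ := le_of_sq_add (norm_nonneg _) n2
    have b4 : 9 / 10 * (9 / 10) * ‖P‖ ≤ N * sg * ‖P‖ := by gcongr
    have b5 : u ≤ 2 * (t + tt v z) := by
      have c2 : N ^ 2 * ((1 + sg) * u) = |tt v z - t| := by
        rw [ezt, show 1 - sg ^ 2 = (1 + sg) * (1 - sg) by ring, abs_mul, abs_mul,
          abs_of_nonneg (sq_nonneg N), abs_of_pos (by linarith : 0 < 1 + sg)]
      have c3 : |tt v z - t| ≤ t + tt v z := abs_le.2 ⟨by linarith, by linarith⟩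
      have c4 : (9 / 10) ^ 2 * (1 * u) ≤ N ^ 2 * ((1 + sg) * u) := by gcongr; linarith
      linarith
    have b6 : b * (u + ‖P‖) ≤ 1 / 1000 * (u + ‖P‖) := by gcongr
    linarith

/-- the quadratic part of the bracket -/
theorem br_ge {ε c : ℝ} (r0 : 0 < r) (a : EE n)
    (h : -(c * (r * ‖a‖) ^ 2) ≤ r ^ 3 * hb (dd v) x a a) {e : ℝ} (he : 0 < e)
    (hc : e + 2 * c ≤ 2 * (1 + ε)) : (2 + ε - 4 / e) * ‖g‖ ^ 2 ≤
    r * ((2 + ε) * ‖g‖ ^ 2 / r + 4 * ⟪g, a⟫ + 2 * r ^ 2 * hb (dd v) x a a +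
      2 * (1 + ε) * r * ‖a‖ ^ 2) := by
  have h1 := (neg_le_abs _).trans (abs_real_inner_le_norm g a)
  have h2 := young (A := 4) (x := r * ‖a‖) (y := ‖g‖) he
  have h3 : r * -⟪g, a⟫ ≤ r * (‖g‖ * ‖a‖) := by gcongr
  have h4 : (e + 2 * c) * (r * ‖a‖) ^ 2 ≤ 2 * (1 + ε) * (r * ‖a‖) ^ 2 := by gcongr
  have e1 : r * ((2 + ε) * ‖g‖ ^ 2 / r + 4 * ⟪g, a⟫ + 2 * r ^ 2 * hb (dd v) x a a +
      2 * (1 + ε) * r * ‖a‖ ^ 2) = (2 + ε) * ‖g‖ ^ 2 - 4 * (r * -⟪g, a⟫) +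
      2 * (r ^ 3 * hb (dd v) x a a) + 2 * (1 + ε) * (r * ‖a‖) ^ 2 := by field_simp; ring
  have e2 : (4 : ℝ) ^ 2 / (4 * e) = 4 / e := by field_simp
  rw [e2] at h2
  rw [e1]; linarith

theorem num_eθ {e θ : ℝ} (e0 : 0 < e) (e1 : e ≤ 1) (s0 : 0 < θ) (s3 : θ ≤ e / 200)
    (s4 : θ ≤ 1 / 1000) : θ ^ 2 / 2 ≤ θ / 2 ∧
    2 + e / 4 + 30 * θ ≤ (1 + e / 2) * (2 - 8 * θ) * (1 - θ) ∧
    (1 + e / 2) * (2 - 8 * θ) + e / 2 ≤ (2 - 8 * θ) * (1 + e) ∧ (1 + e / 2) * (2 - 8 * θ) ≤ 3 :=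
  ⟨by nlinarith,
    by nlinarith [mul_nonneg (sub_nonneg.2 e1) s0.le, sq_nonneg θ, mul_nonneg e0.le (sq_nonneg θ)],
    by nlinarith, by nlinarith⟩

theorem num_N {N θ : ℝ} (N0 : 0 < N) (t0 : 0 ≤ 1 - N ^ 2) (t1 : 1 - N ^ 2 ≤ θ) :
    N ≤ 1 ∧ 1 - θ ≤ N := ⟨by nlinarith, by nlinarith⟩

theorem num_La {N sg p θ : ℝ} (s0 : 0 < θ) (s4 : θ ≤ 1 / 1000) (N1 : N ≤ 1) (N2 : 1 - θ ≤ N)
    (hu : |1 - sg| ≤ θ) (p0 : 1 - θ ≤ p) (p1 : p ≤ 3 / 2) :
    2 - 8 * θ ≤ N * sg * p + N * (1 + sg ^ 2) / 2 ∧ N * sg * p + N * (1 + sg ^ 2) / 2 ≤ 3 := by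
  obtain ⟨u1, u2⟩ := abs_le.1 hu
  have N0 : 0 < N := by linarith
  have a0 : 0 < sg := by linarith
  have a1 : (1 - θ) * (1 - θ) * (1 - θ) ≤ N * sg * p := by gcongr <;> linarith
  have a2 : (1 - θ) * (1 + (1 - θ) ^ 2) ≤ N * (1 + sg ^ 2) := by gcongr <;> linarith
  have a3 : N * sg * p ≤ 1 * (11 / 10) * (3 / 2) := by gcongr <;> linarith
  have a4 : N * (1 + sg ^ 2) ≤ 1 * (1 + (11 / 10) ^ 2) := by gcongr; linarith
  constructor <;> nlinarith [sq_nonneg θ]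

theorem num_y {r d sg θ ga : ℝ} (r0 : 0 < r) (s4 : θ ≤ 1 / 1000) (hd : |d| ≤ θ * r)
    (hu : |1 - sg| ≤ θ) (hg : -θ ≤ ga) : r / 2 ≤ sg * (r - d) + ga * r := by
  obtain ⟨u1, u2⟩ := abs_le.1 hu
  obtain ⟨d1, d2⟩ := abs_le.1 hd
  have d3 : θ * r ≤ 1 / 1000 * r := by gcongr
  have y0 : 9 / 10 * (9 / 10 * r) ≤ sg * (r - d) := by gcongr <;> linarith
  nlinarith

theorem num_L {N r d θ e : ℝ} (r0 : 0 < r) (e0 : 0 < e) (e1 : e ≤ 1) (s3 : θ ≤ e / 200)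
    (hd : |d| ≤ θ * r) (N1 : N ≤ 1) (hL : 0 < r - d) : N / (r - d) ≤ (1 + e / 2) / r := by
  rw [div_le_div_iff₀ hL r0]
  obtain ⟨-, d2⟩ := abs_le.1 hd
  have h1 : θ * r ≤ e / 200 * r := by gcongr
  have h2 : (1 + e / 2) * ((1 - e / 200) * r) ≤ (1 + e / 2) * (r - d) := by gcongr; linarith
  have h3 : 1 * r ≤ (1 + e / 2) * (1 - e / 200) * r := by gcongr; nlinarith
  nlinarith

theorem num_s {c θ : ℝ} (c1 : c ≤ 1) (h : 1 - c ≤ θ ^ 2 / 2) : 1 ^ 2 - c ^ 2 ≤ θ ^ 2 := by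
  nlinarith

theorem sq2 (a b : ℝ) : (72 * (a + b)) ^ 2 ≤ 72 ^ 2 * (2 * a ^ 2 + 2 * b ^ 2) := by
  nlinarith [sq_nonneg (a - b)]

/-- the bounds and the potential at a cap or rim contact -/
theorem bd_of {c e : ℝ} (D : SD v r x z τ om al ga sg) (S : Small v θ r x) (hu : |1 - sg| ≤ θ)
    (s0 : 0 < θ) (s4 : θ ≤ 1 / 1000) (e0 : 0 < e) (e1 : e ≤ 1) (K0 : 0 ≤ K)
    (hK : 1 / 2 ≤ gN v x → ‖∇ (gN v) x‖ ≤ K * tt v x) (hcs : 1 - ⟪nu v x, om⟫ ≤ θ ^ 2 / 2)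
    (hty : (al = -2 ∧ τ = 0 ∧ ∃ h, 0 ≤ h ∧ h ≤ θ ^ 2 / 2 ∧ ga = 3 - h) ∨
      ∃ η, 0 ≤ η ∧ η ≤ θ ^ 2 / 2 ∧ ga = -η ∧ |al - 1| ≤ η ∧ ‖τ‖ ≤ 4 * ‖Pj (nu v x) om‖ ∧
        c ≤ ‖Pj (nu v x) om‖ ^ 2 ∧ 1 - θ ^ 2 / 2 ≤ al * ⟪nu v x, om⟫ + ga + ⟪τ, om⟫ ∧
        al * ⟪nu v x, om⟫ + ga + ⟪τ, om⟫ ≤ 2) :
    Bd v r x τ om al ga sg θ K ∧ PC v r x om al ga sg (e / 4) ≤ (2 + e / 4 + 30 * θ) * r ∧
      (PC v r x om al ga sg (e / 4) ≤ 0 ∨ c ≤ ‖Pj (nu v x) om‖ ^ 2) := by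
  have θθ : θ ^ 2 / 2 ≤ θ / 2 := by nlinarith only [s0, s4]
  have hν := Wd.norm_nu D.hN
  have r1 := S.r
  have r0 : 0 < r := by linarith
  obtain ⟨N1, N2⟩ := num_N D.hN (D.hv.tt_nonneg x) S.t
  have c1' : ⟪nu v x, om⟫ ≤ 1 := (le_abs_self _).trans ((ip_le hν.le D.ho.le).trans_eq (one_mul _))
  have hs : ‖Pj (nu v x) om‖ ≤ θ := by
    refine abs_le_of_sq_le_sq' ?_ s0.le |>.2
    rw [normSq_Pj hν, D.ho, real_inner_comm]; exact num_s c1' hcs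
  have hbu : ‖Bu v x‖ ≤ K * tt v x := by
    rw [← (jN D.hv D.hN).grad]; exact hK (by change 1 / 2 ≤ NN v x; linarith)
  rcases hty with ⟨rfl, rfl, h, k0, k1, rfl⟩ | ⟨η', k0, k1, rfl, k2, k3, k4, k5, -⟩
  · have a1 := num_La (p := -2 * ⟪nu v x, om⟫ + (3 - h) + ⟪0, om⟫) s0 s4 N1 N2 hu
      (by rw [inner_zero_left]; linarith) (by rw [inner_zero_left]; linarith)
    have a2 := pc_cap (κ := e / 4) (cs := ⟪nu v x, om⟫) r0 (by linarith) S.d hu (by linarith) k0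
      (by linarith) (by positivity) (by linarith)
    exact ⟨⟨by linarith, r1, S.t, S.d, hu, hs, by linarith, by norm_num,
      num_y r0 s4 S.d hu (by linarith), by rw [norm_zero]; positivity, a1.1, a1.2, K0, hbu⟩,
      le_trans a2 (by positivity), Or.inl a2⟩
  · obtain ⟨l1, l2⟩ := abs_le.1 k2
    have k6 := (le_abs_self _).trans (ip_le k3 D.ho.le)
    have k7 : al * ⟪nu v x, om⟫ ≤ (1 + η') * 1 := by gcongr <;> linarith
    have a1 := num_La (p := al * ⟪nu v x, om⟫ + -η' + ⟪τ, om⟫) s0 s4 N1 N2 hu (by linarith)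
      (by linarith)
    exact ⟨⟨by linarith, r1, S.t, S.d, hu, hs, by linarith, abs_le.2 ⟨by linarith, by linarith⟩,
      num_y r0 s4 S.d hu (by linarith), k3, a1.1, a1.2, K0, hbu⟩,
      pc_rim r0 (by linarith) S.d hu (by linarith) c1' k0 (by linarith) (k2.trans (by linarith))
        (by positivity) (by linarith), Or.inr k4⟩

set_option maxHeartbeats 1000000 in
/-- **EST** -/
theorem estS (n : ℕ) : EstS n := by
  intro ε hε
  obtain ⟨K, K0, hK⟩ := exists_grad_gN n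
  obtain ⟨e, e0, e1, e2⟩ : ∃ e : ℝ, 0 < e ∧ e ≤ 1 ∧ e ≤ ε :=
    ⟨min 1 ε, by positivity, min_le_left _ _, min_le_right _ _⟩
  have κ0 : 0 < e / 4 := by positivity
  obtain ⟨θ1, C1, t0, t1, c1, h1⟩ := Err_thin K0 κ0 (by linarith) (half_pos e0)
  obtain ⟨η, η0, η1, η2⟩ : ∃ η : ℝ, 0 < η ∧ η ≤ θ1 ∧ η ≤ e / 2 :=
    ⟨min θ1 (e / 2), by positivity, min_le_left _ _, min_le_right _ _⟩
  obtain ⟨θ2, C2, t2, c2, h2⟩ := Err_thick (A := 12 / e) K0 κ0 (by linarith) (half_pos e0) η0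
    (by linarith) (by positivity)
  obtain ⟨θ, s0, s1, s2, s3⟩ : ∃ θ : ℝ, 0 < θ ∧ θ ≤ θ1 ∧ θ ≤ θ2 ∧ θ ≤ e / 200 :=
    ⟨min θ1 (min θ2 (e / 200)), by positivity, min_le_left _ _,
      (min_le_right _ _).trans (min_le_left _ _), (min_le_right _ _).trans (min_le_right _ _)⟩
  have s4 : θ ≤ 1 / 1000 := s1.trans t1
  obtain ⟨-, n2, n3, n4⟩ := num_eθ e0 e1 s0 s3 s4
  refine ⟨θ ^ 2 / 2, by positivity, fun c hc => ⟨min η (√(e * c) / 1000), θ, 1 + C1 + C2 + e,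
    e / 4, by positivity, s0, by linarith, κ0,
    fun v r ηt x z τ om g al ga sg D S hu _ hη ht psd hg hcs hty => ?_⟩⟩
  obtain ⟨B, p1, p2⟩ := bd_of D S hu s0 s4 e0 e1 K0 (hK v D.hv x) hcs hty
  clear hty hK
  have hν := Wd.norm_nu D.hN
  have r0 : 0 < r := one_pos.trans_le S.r
  have tt0 := D.hv.tt_nonneg x
  have N0 := D.hN
  obtain ⟨N1, N2⟩ := num_N D.hN tt0 S.t
  have hs := B.s
  have T0 : 0 ≤ T2 v x := by
    have := (Bl.norm_hop D.hv x (nu v x)).trans_eq (by rw [hν, mul_one])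
    rw [T2, ← Bl.Bn_sq, sub_nonneg]; exact pow_le_pow_left₀ (norm_nonneg _) this 2
  have T1 : T2 v x ≤ Bn v x ^ 2 := by rw [T2, Bl.Bn_sq]; exact sub_le_self _ (sq_nonneg _)
  have T3 : 0 ≤ r * T2 v x / NN v x := by positivity
  have l1 := B.L1
  have l2 := B.L2
  have l0 : 1 ≤ La v x τ om al ga sg := by linarith only [l1, s4]
  have θ9 : 0 < 1 - θ := by linarith only [s4]
  have θ8 : 0 < 2 - 8 * θ := by linarith only [s4]
  refine ⟨l0, fun a => le_of_mul_le_mul_left ((RH_le B D ht κ0).trans ?_) r0⟩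
  obtain ⟨g1, g2⟩ := grad_bd B D hg
  have B0 : 0 ≤ Bn v x := Real.sqrt_nonneg _
  have q1 : PC v r x om al ga sg (e / 4) * (r * T2 v x / NN v x) ≤
      (1 + e / 2) * (2 - 8 * θ) * (r * Bn v x) ^ 2 := by
    have a1 : r * T2 v x / NN v x ≤ r * Bn v x ^ 2 / (1 - θ) := by gcongr
    calc _ ≤ (2 + e / 4 + 30 * θ) * r * (r * Bn v x ^ 2 / (1 - θ)) :=
          (mul_le_mul_of_nonneg_right p1 T3).trans (by gcongr)
      _ ≤ (1 + e / 2) * (2 - 8 * θ) * (1 - θ) * r * (r * Bn v x ^ 2 / (1 - θ)) := by gcongr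
      _ = _ := by field_simp
  have eb : r * (r * ((1 + ε) * hsq (dd v) x)) = (1 + ε) * (r * Bn v x) ^ 2 := by
    rw [← Bl.Bn_sq]; ring
  have eq : ∀ P : ℝ, r * (La v x τ om al ga sg * (r * P + (2 + ε) * ‖g‖ ^ 2 / r + 4 * ⟪g, a⟫ +
      2 * r ^ 2 * hb (dd v) x a a + 2 * (1 + ε) * r * ‖a‖ ^ 2 + (1 + C1 + C2 + e) * r * tt v x ^ 2)) =
      La v x τ om al ga sg * (r * (r * P)) + La v x τ om al ga sg * (r * ((2 + ε) * ‖g‖ ^ 2 / r +
        4 * ⟪g, a⟫ + 2 * r ^ 2 * hb (dd v) x a a + 2 * (1 + ε) * r * ‖a‖ ^ 2)) +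
        La v x τ om al ga sg * ((1 + C1 + C2 + e) * (r * tt v x) ^ 2) := fun P => by ring
  rw [eq]
  have T4 : 0 ≤ r * tt v x := by positivity
  have b0 : 0 ≤ r * Bn v x := by positivity
  have w1 : (1 + C1 + C2 + e) * (r * tt v x) ^ 2 ≤
      La v x τ om al ga sg * ((1 + C1 + C2 + e) * (r * tt v x) ^ 2) :=
    le_mul_of_one_le_left (by positivity) l0
  have w2 : (1 + e / 2) * (2 - 8 * θ) * (r * Bn v x) ^ 2 + e / 2 * (r * Bn v x) ^ 2 ≤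
      La v x τ om al ga sg * ((1 + ε) * (r * Bn v x) ^ 2) := by
    calc _ = ((1 + e / 2) * (2 - 8 * θ) + e / 2) * (r * Bn v x) ^ 2 := by ring
      _ ≤ ((2 - 8 * θ) * (1 + e)) * (r * Bn v x) ^ 2 := by gcongr
      _ ≤ (La v x τ om al ga sg * (1 + ε)) * (r * Bn v x) ^ 2 := by gcongr
      _ = _ := by ring
  have w3 := mul_nonneg e0.le (sq_nonneg (r * Bn v x))
  have w4 := mul_nonneg c1 (sq_nonneg (r * tt v x))
  have w5 := mul_nonneg c2 (sq_nonneg (r * tt v x))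
  have w6 := mul_nonneg e0.le (sq_nonneg (r * tt v x))
  have w7 := sq_nonneg (r * tt v x)
  have G0 := norm_nonneg g
  rcases le_or_gt (r * Bn v x) η with hb1 | hb1
  · have a1 := g2 ((hb1.trans η1).trans t1)
    have a2 := h1 _ _ _ _ _ b0 G0 (norm_nonneg _) (abs_nonneg _) T4 (hb1.trans η1) (hs.trans s1)
      (hu.trans s1) a1
    have a3 := br_ge (g := g) (x := x) (v := v) (ε := ε) (c := r * Bn v x) r0 a (by
      have k1 := (neg_le_abs _).trans (Bl.abs_hb_le D.hv x a a)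
      have k2 := mul_le_mul_of_nonneg_left k1 (pow_pos r0 3).le
      linarith only [k2]) two_pos (by linarith only [hb1, η2, e2, e0])
    have a4 : e * ‖g‖ ^ 2 ≤ (2 + ε - 4 / 2) * ‖g‖ ^ 2 := by gcongr; linarith only [e2]
    have a5 := le_mul_of_one_le_left (((mul_nonneg e0.le (sq_nonneg _)).trans a4).trans a3) l0
    have a5' := (a4.trans a3).trans a5
    have a6 := mul_nonneg e0.le (sq_nonneg ‖g‖)
    split_ifs with hb2
    · rw [mul_zero, mul_zero, mul_zero]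
      rcases p2 with p2 | p2
      · have a7 := mul_nonpos_of_nonpos_of_nonneg p2 T3
        linarith only [a7, a2, a5', a6, w1, w5, w6, w7]
      · have a7 : (r * Bn v x) ^ 2 ≤ e * c / 10 ^ 6 := by
          refine (pow_le_pow_left₀ b0 (hb2.trans (hη.trans (min_le_right _ _))) 2).trans_eq ?_
          rw [div_pow, Real.sq_sqrt (by positivity)]; norm_num
        have a8 := (pow_le_pow_left₀ (norm_nonneg _)
          ((le_add_of_nonneg_left (abs_nonneg _)).trans a1) 2).trans (sq2 _ _)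
        have a9 := mul_le_mul_of_nonneg_left (p2.trans a8) e0.le
        have a10 := mul_le_mul_of_nonneg_right n4 (sq_nonneg (r * Bn v x))
        linarith only [a7, a9, a10, q1, a2, a5', a6, w1, w5, w6, w7]
    · rw [eb]; linarith only [q1, a2, a5', a6, w1, w2, w3, w5, w6, w7]
  · have a2 := h2 _ _ _ _ _ G0 (norm_nonneg _) (abs_nonneg _) T4 hb1.le (hs.trans s2)
      (hu.trans s2) g1
    have a3 := br_ge (g := g) (x := x) (v := v) (ε := ε) (c := 1 + e / 2) r0 a (by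
      have b2 := mul_le_mul_of_nonneg_right (num_L r0 e0 e1 s3 S.d N1 D.hL) (sq_nonneg ‖a‖)
      have b3 := mul_le_mul_of_nonneg_left (show -((1 + e / 2) / r * ‖a‖ ^ 2) ≤ hb (dd v) x a a by
        linarith only [psd a, b2]) (pow_pos r0 3).le
      refine le_trans (le_of_eq ?_) b3
      field_simp) e0 (by linarith only [e2])
    have a4 : -(4 / e * ‖g‖ ^ 2) ≤ (2 + ε - 4 / e) * ‖g‖ ^ 2 := by
      have : 0 ≤ (2 + ε) * ‖g‖ ^ 2 := by positivity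
      linarith only [this]
    have a5 := mul_le_mul_of_nonneg_left (a4.trans a3) (zero_le_one.trans l0)
    have a6 : La v x τ om al ga sg * (4 / e * ‖g‖ ^ 2) ≤ 3 * (4 / e * ‖g‖ ^ 2) := by gcongr
    have a7 : 3 * (4 / e * ‖g‖ ^ 2) = 12 / e * ‖g‖ ^ 2 := by ring
    rw [if_neg (not_le.2 (lt_of_le_of_lt (hη.trans (min_le_left _ _)) hb1)), eb]
    linarith only [a2, a5, a6, a7, q1, w1, w2, w4, w6, w7]

/-- **cap and rim supports** -/
theorem cr (n : ℕ) : CRStmt n := cr_of (estS n)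

end

end Crest.Agent.N067.X3
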