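import Crest.Agent.N067.X3.New

/-!
# Row 67, block X2 (helper53): `CRStmt` from the support function and the estimate
-/

set_option autoImplicit false

open MeasureTheory Laplacian InnerProductSpace Topology Filter Set Metric
open scoped RealInnerProductSpace ContDiff Gradient

namespace Crest.Agent.N067.X2

open Crest.Agent.R077 Crest.Agent.N067.V Crest.Agent.N067.M

noncomputable section

open Classical in
def EstS (n : ℕ) : Prop := ∀ ε : ℝ, 0 < ε → ∃ th0 : ℝ, 0 < th0 ∧ ∀ c : ℝ, 0 < c →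
  ∃ η0 th C κ : ℝ, 0 < η0 ∧ 0 < th ∧ 1 ≤ C ∧ 0 < κ ∧
  ∀ (v : EE n → ℝ) (r ηt : ℝ) (x z τ om g : EE n) (al ga sg : ℝ), SD v r x z τ om al ga sg →
    Small v th r x → |1 - sg| ≤ th → 0 ≤ ηt → ηt ≤ η0 → tt v x * (r - dd v x) ≤ √2 * NN v x →
    (∀ a, 0 ≤ hb (dd v) x a a + NN v x / (r - dd v x) * ‖a‖ ^ 2) →
    La v x τ om al ga sg • g = Ga v r x τ om al sg → 1 - ⟪nu v x, om⟫ ≤ th0 →
    ((al = -2 ∧ τ = 0 ∧ ∃ h, 0 ≤ h ∧ h ≤ th0 ∧ ga = 3 - h) ∨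
      ∃ η, 0 ≤ η ∧ η ≤ th0 ∧ ga = -η ∧ |al - 1| ≤ η ∧ ‖τ‖ ≤ 4 * ‖Pj (nu v x) om‖ ∧
        c ≤ ‖Pj (nu v x) om‖ ^ 2 ∧ 1 - th0 ≤ al * ⟪nu v x, om⟫ + ga + ⟪τ, om⟫ ∧
        al * ⟪nu v x, om⟫ + ga + ⟪τ, om⟫ ≤ 2) →
    1 ≤ La v x τ om al ga sg ∧ ∀ a, RH v r x z τ om g al ga sg κ ≤ La v x τ om al ga sg *
      (r * (if r * Bn v x ≤ ηt then 0 else (1 + ε) * hsq (dd v) x)
          + (2 + ε) * ‖g‖ ^ 2 / r + 4 * ⟪g, a⟫ + 2 * r ^ 2 * hb (dd v) x a a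
          + 2 * (1 + ε) * r * ‖a‖ ^ 2 + C * r * tt v x ^ 2)

theorem cr_of {n : ℕ} (hE : EstS n) : CRStmt n := by
  intro ε hε
  obtain ⟨th0, h0, hE⟩ := hE ε hε
  refine ⟨th0 / 5, by positivity, fun β b1 b2 => ?_⟩
  have η0 := β.η0; have η1 := β.η1; have k0 := β.h0
  obtain ⟨e0, th, C, κ, a1, a2, a3, a4, hE⟩ := hE (β.η * β.h / 16) (by positivity)
  refine ⟨e0, min th (1 / 100), C, a1, lt_min a2 (by norm_num), a3,
    fun v ρm r ηt x w om z hv t0 t1 S hs psd c k => ?_⟩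
  obtain ⟨τ, al, ga, P, D, eL, eG, R, c2, e1, e2, e3, e4⟩ :=
    newton hv (min_le_right _ _) S c k ρm
  have hν := Wd.norm_nu D.hN
  have ho := c.unit
  obtain ⟨k1, k3⟩ : β.η * (1 - ⟪om, nu v x⟫) ≤ 2 * β.h ∧ (β.η - β.h) * ⟪om, nu v x⟫ ≤ ⟪om, w⟫ :=
    k.elim (fun h => ⟨(h.tl hν ho).1, (h.tl hν ho).2.2⟩) fun h => ⟨h.1, h.2.2.2⟩
  have hc1 : ⟪om, nu v x⟫ ≤ 1 := by simpa [hν, ho] using real_inner_le_norm om (nu v x)
  have hc2 : 1 - ⟪om, nu v x⟫ ≤ 2 * (th0 / 5) := le_of_mul_le_mul_left (by linarith) η0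
  have hh : β.h ≤ th0 / 5 / 100 := b2.trans (by nlinarith)
  have how : ⟪om, w⟫ ≤ β.η := by
    have := real_inner_le_norm om w
    rw [ho] at this; linarith [c.mem.1]
  obtain ⟨hL, hR⟩ := hE v r ηt x z τ om (∇ R x) al ga _ D ⟨S.t.trans (min_le_left _ _),
    S.d.trans (mul_le_mul_of_nonneg_right (min_le_left _ _) (by linarith [S.r])), S.r⟩
    (c.sgl.trans (min_le_left _ _)) t0 t1 hs psd e3 (by rw [real_inner_comm]; linarith) (by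
      rcases P with ⟨-, p1, p2, p3⟩ | ⟨p0, p1, p2, p3⟩
      · exact Or.inl ⟨p2, p1, β.h, k0.le, by linarith, p3⟩
      have e : al * ⟪nu v x, om⟫ + ga + ⟪τ, om⟫ = ⟪om, nu v x⟫ + ⟪om, w⟫ - β.η := by
        rw [p1, p2, p3, Pj, inner_sub_left, real_inner_smul_left, real_inner_comm om (nu v x),
          real_inner_comm om w]
        ring
      refine Or.inr ⟨β.η, η0.le, by linarith, p3, ?_, p1 ▸ p0.2.2.1, p0.2.1, ?_, ?_⟩
      · have := abs_real_inner_le_norm w (nu v x)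
        rw [hν, mul_one] at this
        rw [p2, add_sub_cancel_left]
        exact this.trans c.mem.1
      · rw [e]; nlinarith
      · rw [e]; linarith)
  refine ⟨∇ R x, eL ▸ eG ▸ e3, fun e he => ⟨R, c2, e1, e2, rfl, fun a => ?_⟩⟩
  exact (le_of_mul_le_mul_left ((e4 κ a4).trans (hR a)) (by linarith)).trans (by linarith)

end

end Crest.Agent.N067.X2
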