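import Crest.Agent.N067.X2.Fx

/-!
# Row 67, block X2 (helper53): the support function at a cap or rim contact (implicit function)
-/

set_option autoImplicit false

open MeasureTheory Laplacian InnerProductSpace Topology Filter Set Metric
open scoped RealInnerProductSpace ContDiff Gradient

namespace Crest.Agent.N067.X2

open Crest.Agent.R077 Crest.Agent.N067.V Crest.Agent.N067.M

noncomputable section

variable {n : ℕ} {β : Bo} {v : EE n → ℝ} {x z τ w om : EE n} {r al ga sg δ : ℝ}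

/-- the implicit function of a defect which decreases in the size -/
theorem exists_imp {F : EE n × ℝ → ℝ} {c : ℝ} (hF : ContDiffAt ℝ 2 F (x, r)) (h0 : F (x, r) = 0)
    (hc : 0 < c) (hd : fderiv ℝ F (x, r) (0, 1) = -c) : ∃ R : EE n → ℝ, ContDiffAt ℝ 2 R x ∧
      R x = r ∧ (∀ᶠ y in 𝓝 x, F (y, R y) = 0) ∧ ∀ᶠ q in 𝓝 (x, r), 0 ≤ F q → q.2 ≤ R q.1 := by
  have e : ∀ s : ℝ, fderiv ℝ F (x, r) (0, s) = s * -c := fun s => by
    rw [← hd, ← smul_eq_mul, ← map_smul, Prod.smul_mk, smul_zero, smul_eq_mul, mul_one]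
  have i : (fderiv ℝ F (x, r) ∘L .inr ℝ (EE n) ℝ).IsInvertible :=
    ⟨ContinuousLinearEquiv.unitsEquivAut ℝ (Units.mk0 (-c) (neg_ne_zero.2 hc.ne')), by
      ext; simp [hd]⟩
  have h1 := hF.contDiffAt_implicitFunction two_ne_zero i
  have h2 := hF.implicitFunction_apply_self two_ne_zero i
  have h3 := hF.eventually_apply_implicitFunction two_ne_zero i
  generalize hF.implicitFunction two_ne_zero i = R at h1 h2 h3
  rw [h0] at h3
  refine ⟨R, h1, h2, h3, ?_⟩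
  have t1 : Tendsto (fun q : EE n × ℝ => q.1) (𝓝 (x, r)) (𝓝 x) := continuousAt_fst
  have t2 : Tendsto (fun q : EE n × ℝ => (q, (q.1, R q.1))) (𝓝 (x, r)) (𝓝 ((x, r), (x, r))) := by
    have := h1.continuousAt.tendsto.comp t1
    rw [h2] at this
    exact tendsto_id.prodMk_nhds (t1.prodMk_nhds this)
  filter_upwards [t2.eventually ((hF.hasStrictFDerivAt two_ne_zero).isLittleO.def (half_pos hc)),
    t1.eventually h3] with q h4 h5 h6
  by_contra h7
  have e2 : q - (q.1, R q.1) = (0, q.2 - R q.1) := Prod.ext (sub_self _) rfl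
  simp only [h5, e2, e, Prod.norm_mk, norm_zero, Real.norm_eq_abs] at h4
  rw [abs_of_pos (sub_pos.2 (not_le.1 h7)), max_eq_right (sub_pos.2 (not_le.1 h7)).le] at h4
  nlinarith [le_abs_self (F q - 0 - (q.2 - R q.1) * -c), not_le.1 h7]

/-- **the support at a sphere contact** -/
theorem SD.newton (D : SD v r x z τ om al ga sg) (hL : 0 < La v x τ om al ga sg)
    (hd : |dd v x| < r) (ρm : ℝ) (mem : ∀ R : EE n ≃ₗᵢ[ℝ] EE n,
      ∀ᶠ q in 𝓝 (x, r), Fit β v q.1 q.2 → 0 ≤ Ps v R x z τ al ga q) :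
    ∃ R : EE n → ℝ, ContDiffAt ℝ 2 R x ∧ R x = r ∧ (∀ᶠ y in 𝓝 x, rt β v ρm y ≤ R y) ∧
      La v x τ om al ga sg • ∇ R x = Ga v r x τ om al sg ∧
      ∀ κ > 0, La v x τ om al ga sg * Lm v R x ≤ RH v r x z τ om (∇ R x) al ga sg κ := by
  obtain ⟨R, hR⟩ := exists_R (Wd.norm_nu D.hN) D.ho D.hc
  have cP : ContDiffAt ℝ 2 (Ps v R x z τ al ga) (x, r) := Ps_c2 D.hv D.hN D.hL.ne' (by
    rw [D.Wx]
    exact smul_ne_zero D.hy.ne' (norm_ne_zero_iff.1 (by rw [D.ho]; exact one_ne_zero)))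
  have ch : ∀ u : EE n, fderiv ℝ (Ps v R x z τ al ga) (x, r) (om, ⟪u, om⟫) =
      ⟪Ga v r x τ om al sg - La v x τ om al ga sg • u, om⟫ := fun u => by
    obtain ⟨_, j, -⟩ := D.jet hR (Jt.aff (v := v) (x := x) r u)
    have h1 : HasFDerivAt (Ps v R x z τ al ga) (fderiv ℝ (Ps v R x z τ al ga) (x, r))
        (x, aff r u x x) := by
      rw [aff_self]; exact (cP.differentiableAt two_ne_zero).hasFDerivAt
    have h2 := h1.comp x ((hasFDerivAt_id x).prodMk (hasFDerivAt_aff r u x x))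
    rw [← j.grad, inner_grad, show fderiv ℝ (fun p => Ps v R x z τ al ga (p, aff r u x p)) x = _
      from h2.fderiv]
    rfl
  have oo : ⟪om, om⟫ = 1 := by rw [real_inner_self_eq_norm_sq, D.ho, one_pow]
  have dP : fderiv ℝ (Ps v R x z τ al ga) (x, r) (0, 1) = -La v x τ om al ga sg := by
    have h1 := ch om
    have h2 := ch 0
    rw [inner_zero_left, smul_zero, sub_zero] at h2
    rw [oo, inner_sub_left, real_inner_smul_left, oo, ← h2] at h1
    rw [show ((0, 1) : EE n × ℝ) = (om, 1) - (om, 0) by simp, map_sub, h1]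
    ring
  have P0 : Ps v R x z τ al ga (x, r) = 0 := by
    obtain ⟨_, j, -⟩ := D.jet hR (Jt.const (v := v) (x := x) r)
    exact j.val
  obtain ⟨f, c2, e1, e2, e3⟩ := exists_imp cP P0 hL dP
  obtain ⟨l', j, hl⟩ := D.jet hR ((Jt.of v c2).cast e1 rfl rfl)
  have j0 := (Jt.const (v := v) (x := x) 0).congr e2
  have hg := (sub_eq_zero.1 (j.grad.symm.trans j0.grad)).symm
  refine ⟨f, c2, e1, Bl.rt_le_of D.hv ρm c2.continuousAt e1 hd ?_, hg, fun κ hκ => ?_⟩
  · filter_upwards [mem R, e3] with q h1 h2 h3 using h2 (h1 h3)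
  · have := hl hg κ hκ
    rwa [j.lm.symm.trans j0.lm, zero_add] at this

theorem ev_nu (hv : Sol v) (hN : 0 < NN v x) : ∀ᶠ q : EE n × ℝ in 𝓝 (x, r), ‖nu v q.1‖ = 1 := by
  have t1 : Tendsto (fun q : EE n × ℝ => q.1) (𝓝 (x, r)) (𝓝 x) := continuousAt_fst
  filter_upwards [t1.eventually ((Bl.cont_NN hv).continuousAt.eventually (lt_mem_nhds hN))]
    with q hq using Wd.norm_nu hq

/-- the moved centre of a rim contact stays in the core -/
theorem mem_rim (hv : Sol v) (hN : 0 < NN v x) (hw : w ∈ Core β (nu v x)) (R : EE n ≃ₗᵢ[ℝ] EE n) :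
    ∀ᶠ q in 𝓝 (x, r), Fit β v q.1 q.2 →
      0 ≤ Ps v R x z (Pj (nu v x) w) (1 + ⟪w, nu v x⟫) (-β.η) q := by
  filter_upwards [ev_nu (r := r) hv hN] with q hq hf
  have hν := Wd.norm_nu hN
  have key : ∀ c : ℝ, ‖⟪w, nu v x⟫ • nu v q.1 + Pj (nu v q.1) (Pj (nu v x) w) + c • nu v q.1‖ ≤
      ‖w + c • nu v x‖ := fun c => by
    refine (sq_le_sq₀ (norm_nonneg _) (norm_nonneg _)).1 ?_
    rw [add_right_comm, ← add_smul, norm_add_sq_real, real_inner_smul_left, real_inner_comm _ (nu v q.1),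
      inner_Pj hq, normSq_Pj hq, normSq_Pj hν, norm_add_sq_real, real_inner_smul_right, norm_smul,
      norm_smul, hq, hν, mul_one, mul_one, Real.norm_eq_abs, Real.norm_eq_abs, sq_abs, sq_abs]
    nlinarith [sq_nonneg ⟪Pj (nu v x) w, nu v q.1⟫]
  have h := hf (⟪w, nu v x⟫ • nu v q.1 + Pj (nu v q.1) (Pj (nu v x) w))
    ⟨by simpa using (key 0).trans (by simpa using hw.1), (key 3).trans hw.2⟩ (z - R x + R q.1)
  have e : z - R x + R q.1 - cen v q.1 q.2 (⟪w, nu v x⟫ • nu v q.1 +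
      Pj (nu v q.1) (Pj (nu v x) w)) = Wv v R x z (Pj (nu v x) w) (1 + ⟪w, nu v x⟫) q := by
    rw [cen, Wv]; module
  rw [PP, e] at h
  rw [Ps, neg_mul, sub_neg_eq_add]
  exact sub_nonneg.2 h

/-- the moved centre of a cap contact stays in the core -/
theorem mem_cap (D : SD v r x z 0 om (-2) (3 - β.h) sg) (hc : IsCap β (nu v x) w om)
    (hp : β.η * r < sg * (r - dd v x)) (R : EE n ≃ₗᵢ[ℝ] EE n) :
    ∀ᶠ q in 𝓝 (x, r), Fit β v q.1 q.2 → 0 ≤ Ps v R x z 0 (-2) (3 - β.h) q := by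
  have cW : ContinuousAt (Wv v R x z 0 (-2)) (x, r) := (Wv_c2 D.hv D.hN).continuousAt
  have nW : ‖Wv v R x z 0 (-2) (x, r)‖ = sg * (r - dd v x) + (3 - β.h) * r := by
    rw [D.Wx, norm_smul, D.ho, mul_one, Real.norm_of_nonneg D.hy.le]
  have cν : ContinuousAt (fun q : EE n × ℝ => nu v q.1) (x, r) :=
    ContinuousAt.comp (g := nu v) (Bl.cont_nu D.hv D.hN) continuousAt_fst
  have h1 : ∀ᶠ q in 𝓝 (x, r), 0 < ‖Wv v R x z 0 (-2) q‖ :=
    continuousAt_const.eventually_lt cW.norm (nW ▸ D.hy)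
  have h2 : ∀ᶠ q : EE n × ℝ in 𝓝 (x, r), (3 + β.η - β.h) * q.2 < ‖Wv v R x z 0 (-2) q‖ :=
    ContinuousAt.eventually_lt (f := fun q : EE n × ℝ => (3 + β.η - β.h) * q.2)
      (continuousAt_const.mul continuousAt_snd) cW.norm (by rw [nW]; linarith)
  have h3 : ∀ᶠ q : EE n × ℝ in 𝓝 (x, r), ‖(3 + β.η - β.h) • ‖Wv v R x z 0 (-2) q‖⁻¹ •
      Wv v R x z 0 (-2) q - (3 : ℝ) • nu v q.1‖ < β.η := by
    have c1 : ContinuousAt (fun q => ‖Wv v R x z 0 (-2) q‖⁻¹) (x, r) :=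
      cW.norm.inv₀ (by rw [nW]; exact D.hy.ne')
    have c2 : ContinuousAt (fun q => ‖Wv v R x z 0 (-2) q‖⁻¹ • Wv v R x z 0 (-2) q) (x, r) :=
      c1.smul cW
    have c3 : ContinuousAt (fun q : EE n × ℝ => (3 + β.η - β.h) • ‖Wv v R x z 0 (-2) q‖⁻¹ •
        Wv v R x z 0 (-2) q - (3 : ℝ) • nu v q.1) (x, r) :=
      (c2.const_smul (3 + β.η - β.h)).sub (cν.const_smul (3 : ℝ))
    refine ContinuousAt.eventually_lt c3.norm continuousAt_const ?_
    rw [nW, D.Wx, inv_smul_smul₀ D.hy.ne', ← hc.1]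
    exact hc.2
  filter_upwards [h1, h2, h3] with q h1 h2 h3 hf
  have h4 : 0 ≤ 3 + β.η - β.h := by linarith [β.η0, β.η1, β.h1]
  have u : ‖‖Wv v R x z 0 (-2) q‖⁻¹ • Wv v R x z 0 (-2) q‖ = 1 := by
    rw [norm_smul, norm_inv, norm_norm, inv_mul_cancel₀ h1.ne']
  have h := hf _ ⟨h3.le, by
    rw [sub_add_cancel, norm_smul, u, mul_one, Real.norm_of_nonneg h4]⟩ (z - R x + R q.1)
  have e : z - R x + R q.1 - cen v q.1 q.2 ((3 + β.η - β.h) • ‖Wv v R x z 0 (-2) q‖⁻¹ •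
      Wv v R x z 0 (-2) q - (3 : ℝ) • nu v q.1) = (‖Wv v R x z 0 (-2) q‖ - (3 + β.η - β.h) * q.2) •
        ‖Wv v R x z 0 (-2) q‖⁻¹ • Wv v R x z 0 (-2) q := by
    rw [sub_smul ‖Wv v R x z 0 (-2) q‖, smul_inv_smul₀ h1.ne']
    generalize ‖Wv v R x z 0 (-2) q‖⁻¹ • Wv v R x z 0 (-2) q = U
    rw [cen, Wv, Pj, inner_zero_left]
    module
  rw [PP, e, norm_smul, u, mul_one, Real.norm_of_nonneg (sub_nonneg.2 h2.le)] at h
  rw [Ps, show ‖Wv v R x z 0 (-2) q‖ - (3 - β.h) * q.2 =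
    ‖Wv v R x z 0 (-2) q‖ - (3 + β.η - β.h) * q.2 + β.η * q.2 by ring]
  exact sub_nonneg.2 h

/-- the parameters of the sphere of a contact -/
def Par (β : Bo) (ν w om τ : EE n) (al ga : ℝ) : Prop :=
  (IsCap β ν w om ∧ τ = 0 ∧ al = -2 ∧ ga = 3 - β.h) ∨
    (IsRim β ν w om ∧ τ = Pj ν w ∧ al = 1 + ⟪w, ν⟫ ∧ ga = -β.η)

/-- **NEWTON**: the support function at a cap or rim contact -/
theorem newton (hv : Sol v) (hδ : δ ≤ 1 / 100) (S : Small v δ r x) (c : Con β v δ r x w om z)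
    (k : IsCap β (nu v x) w om ∨ IsRim β (nu v x) w om) (ρm : ℝ) : ∃ (τ : EE n) (al ga : ℝ),
      Par β (nu v x) w om τ al ga ∧ SD v r x z τ om al ga (NN v z / NN v x) ∧
      La v x τ om al ga (NN v z / NN v x) = Lam v β.η x w om (NN v z / NN v x) ∧
      Ga v r x τ om al (NN v z / NN v x) = G0 v r x w om (NN v z / NN v x) ∧
      ∃ R : EE n → ℝ, ContDiffAt ℝ 2 R x ∧ R x = r ∧ (∀ᶠ y in 𝓝 x, rt β v ρm y ≤ R y) ∧
        La v x τ om al ga (NN v z / NN v x) • ∇ R x = Ga v r x τ om al (NN v z / NN v x) ∧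
        ∀ κ > 0, La v x τ om al ga (NN v z / NN v x) * Lm v R x ≤
          RH v r x z τ om (∇ R x) al ga (NN v z / NN v x) κ := by
  have eN : tt v x = 1 - NN v x ^ 2 := rfl
  have hN1 := NN_le_one hv x
  have hN0 : 0 ≤ NN v x := norm_nonneg _
  have ht := S.t.trans hδ
  have hr := S.r
  have hN : 0 < NN v x := by nlinarith
  have hν := Wd.norm_nu hN
  have ho := c.unit
  obtain ⟨k1, k3⟩ : β.η * (1 - ⟪om, nu v x⟫) ≤ 2 * β.h ∧ (β.η - β.h) * ⟪om, nu v x⟫ ≤ ⟪om, w⟫ :=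
    k.elim (fun h => ⟨(h.tl hν ho).1, (h.tl hν ho).2.2⟩) fun h => ⟨h.1, h.2.2.2⟩
  have eS : NN v x * (NN v z / NN v x) = NN v z := mul_div_cancel₀ _ hN.ne'
  have hc1 : ⟪om, nu v x⟫ ≤ 1 := by simpa [hν, ho] using real_inner_le_norm om (nu v x)
  have how : ⟪om, w⟫ ≤ β.η := by
    have := real_inner_le_norm om w
    rw [ho] at this; linarith [c.mem.1]
  have η0 := β.η0; have η1 := β.η1; have h1 := β.h1
  obtain ⟨hc2, -, hL1, -⟩ := fx_num (δ := 1 / 100) (by norm_num) le_rfl β.η0 β.η1 β.h0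
    (by linarith) hN0 hN1 (NN_le_one hv z) (eN ▸ ht) eS (c.sgl.trans hδ) hc1 k1 k3 how
  have hL : 0 < Lam v β.η x w om (NN v z / NN v x) := by rw [Lam, eS]; linarith
  obtain ⟨d1, d2⟩ := abs_le.1 (S.d.trans (mul_le_mul_of_nonneg_right hδ (by linarith)))
  obtain ⟨s1, s2⟩ := abs_le.1 (c.sgl.trans hδ)
  have gz : ∇ (dd v) z = -(NN v x * (NN v z / NN v x)) • om := by rw [eS]; exact c.grad
  have hpos := c.pos
  have heq := c.eq
  generalize NN v z / NN v x = sg at *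
  have hp : β.η * r < sg * (r - dd v x) := by nlinarith
  have hd : |dd v x| < r := abs_lt.2 ⟨by linarith, by linarith⟩
  have L0 : 0 < r - dd v x := by linarith
  have dz : dd v z = dd v x + NN v x * ((r - dd v x) * (1 - sg ^ 2) / 2) := by
    have e : z - cen v x r w = (sg * (r - dd v x) - β.η * r) • om :=
      sub_eq_iff_eq_add'.2 hpos
    rw [heq, PP, e, norm_smul, ho, mul_one, Real.norm_of_nonneg (sub_nonneg.2 hp.le), gp]
    field_simp
    ring
  have νν : ⟪nu v x, nu v x⟫ = 1 := by rw [real_inner_self_eq_norm_sq, hν, one_pow]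
  have oo : ⟪om, om⟫ = 1 := by rw [real_inner_self_eq_norm_sq, ho, one_pow]
  rcases k with k | k
  · have D : SD v r x z 0 om (-2) (3 - β.h) sg := ⟨hv, hN, L0, by linarith, by nlinarith,
      inner_zero_right _, ho, by linarith, by rw [hpos, cen, k.1]; module, dz, gz⟩
    have e1 : La v x 0 om (-2) (3 - β.h) sg = Lam v β.η x w om sg := by
      rw [La, Lam, k.1, inner_sub_right, real_inner_smul_right, real_inner_smul_right, oo,
        inner_zero_left, real_inner_comm om (nu v x)]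
      ring
    refine ⟨0, -2, 3 - β.h, Or.inl ⟨k, rfl, rfl, rfl⟩, D, e1, ?_,
      D.newton (e1 ▸ hL) hd ρm (mem_cap D k hp)⟩
    rw [Ga, G0, mv, k.1, AA_apply, map_zero, Bu, Pj, real_inner_comm om (nu v x)]
    simp only [inner_sub_left, real_inner_smul_left, νν, map_add, map_sub, map_smul]
    match_scalars <;> field_simp <;> ring
  · have D : SD v r x z (Pj (nu v x) w) om (1 + ⟪w, nu v x⟫) (-β.η) sg := ⟨hv, hN, L0,
      by linarith, by linarith, by rw [real_inner_comm, inner_Pj hν], ho, by linarith,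
      by rw [hpos, cen, Pj]; module, dz, gz⟩
    have e1 : La v x (Pj (nu v x) w) om (1 + ⟪w, nu v x⟫) (-β.η) sg = Lam v β.η x w om sg := by
      rw [La, Lam, Pj, inner_sub_left, real_inner_smul_left, real_inner_comm om (nu v x),
        real_inner_comm om w]
      ring
    refine ⟨_, _, _, Or.inr ⟨k, rfl, rfl, rfl⟩, D, e1, ?_,
      D.newton (e1 ▸ hL) hd ρm (mem_rim hv hN c.mem)⟩
    rw [Ga, G0, mv, AA_apply, AA_apply, Bu, Pj, Pj, inner_Pj hν, Pj, real_inner_comm om (nu v x)]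
    simp only [map_add, map_sub, map_smul]
    match_scalars <;> field_simp <;> ring

end

end Crest.Agent.N067.X2
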